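import Vale.Agent.P216.H787.Slant

/-!
# The lattice path product is commutative up to sign and associative

* `sh_comm`: `swap (sh c c') = (-1) ^ (p q) sh c' c`;
* `sh_assoc'`: `sh (sh a b) c = sh a (sh b c)` (with `Equiv.prodAssoc`; `H311/Assoc` has the version
  with `asc`).
-/

open Finsupp

namespace Vale.Agent.P216.Sl

variable {k : Type} [Field k]
variable {α β γ : Type}

/-- The lists of a lattice path product. -/
theorem Sh_memLen (s : List α) (t : List β) :
    (Sh s t : Ch k (α × β)) ∈ Sp k (fun l => l.length + 1 = s.length + t.length) := by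
  induction s, t using Sh.induct with
  | case1 t => rw [Sh_nil_left]; exact Submodule.zero_mem _
  | case2 a s => rw [Sh_nil_right]; exact Submodule.zero_mem _
  | case3 a s b t ih1 ih2 =>
    rw [Sh]
    refine map_mem (P := fun l => l.length + 2 = (a :: s).length + (b :: t).length) _
      (fun l hl => ?_) (Submodule.add_mem _ (Submodule.add_mem _ ?_ (Submodule.smul_mem _ _ ?_)) ?_)
    · rw [cons_single]
      exact single_mem (by simp only [List.length_cons] at hl ⊢; omega) _
    · exact Sp_mono (fun l hl => by simp only [List.length_cons] at hl ⊢; omega) ih1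
    · exact Sp_mono (fun l hl => by simp only [List.length_cons] at hl ⊢; omega) ih2
    · split_ifs with h
      · obtain ⟨rfl, rfl⟩ := h
        exact single_mem (by simp) _
      · exact Submodule.zero_mem _

theorem sgn_par {m n : ℕ} (h : m % 2 = n % 2) : (-1 : k) ^ m = (-1 : k) ^ n := by
  rcases Nat.even_or_odd m with hm | hm
  · have hn : Even n := by rw [Nat.even_iff] at hm ⊢; omega
    rw [hm.neg_one_pow, hn.neg_one_pow]
  · have hn : Odd n := by rw [Nat.odd_iff] at hm ⊢; omega
    rw [hm.neg_one_pow, hn.neg_one_pow]

/-- Commutativity for lists. -/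
theorem swap_Sh (s : List α) (t : List β) (p q : ℕ) (hs : s.length = p + 1)
    (ht : t.length = q + 1) :
    mp Prod.swap (Sh s t : Ch k (α × β)) = (-1 : k) ^ (p * q) • Sh t s := by
  induction s, t using Sh.induct generalizing p q with
  | case1 t => simp at hs
  | case2 a s => simp at ht
  | case3 a s b t ih1 ih2 =>
    simp only [List.length_cons, Nat.add_right_cancel_iff] at hs ht
    have e1 : mp Prod.swap (Sh s (b :: t) : Ch k (α × β)) =
        ((-1 : k) ^ (p * q) * (-1 : k) ^ q) • Sh (b :: t) s := by
      cases p with
      | zero =>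
        have : s = [] := List.length_eq_zero_iff.1 hs
        rw [this, Sh_nil_left, Sh_nil_right, map_zero, smul_zero]
      | succ p =>
        rw [ih1 p q hs (by simp [ht]), ← pow_add]
        congr 1
        exact sgn_par (by
          have : (p + 1) * q + q = p * q + 2 * q := by ring
          rw [this]; omega)
    have e2 : (-1 : k) ^ s.length • mp Prod.swap (Sh (a :: s) t : Ch k (α × β)) =
        (-1 : k) ^ (p * q) • Sh t (a :: s) := by
      cases q with
      | zero =>
        have : t = [] := List.length_eq_zero_iff.1 ht
        rw [this, Sh_nil_left, Sh_nil_right, map_zero, smul_zero, smul_zero]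
      | succ q =>
        rw [ih2 p q (by simp [hs]) ht, smul_smul, ← pow_add, hs]
        congr 1
        exact sgn_par (by
          have : p + p * q = p * (q + 1) := by ring
          rw [this])
    rw [Sh, Sh, mp_cons, ← map_smul (cons (b, a))]
    change cons (b, a) _ = cons (b, a) _
    congr 1
    rw [map_add, map_add, map_smul, e1, e2, smul_add, smul_add, smul_smul, ht, add_comm (((-1 : k) ^ (p * q) * (-1 : k) ^ q) • _)]
    congr 1
    by_cases h : s = [] ∧ t = []
    · obtain ⟨rfl, rfl⟩ := h
      have hp : p = 0 := by simpa using hs.symm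
      have hq : q = 0 := by simpa using ht.symm
      subst hp
      simp
    · rw [if_neg h, if_neg (fun h' => h ⟨h'.2, h'.1⟩), map_zero, smul_zero]

/-- **Commutativity up to sign.** -/
theorem sh_comm {p q : ℕ} {c : Ch k α} {c' : Ch k β} (hc : c ∈ Sp k (Ln (p + 1)))
    (hc' : c' ∈ Sp k (Ln (q + 1))) :
    mp Prod.swap (sh c c') = (-1 : k) ^ (p * q) • sh c' c := by
  have h1 : ∀ s : List α, Ln (p + 1) s → mp Prod.swap (sh (single s (1 : k)) c') =
      (-1 : k) ^ (p * q) • sh c' (single s 1) := by
    intro s hs
    have := eq_of_mem (P := Ln (q + 1))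
      (F := mp Prod.swap ∘ₗ (sh (k := k) (α := α) (β := β)) (single s (1 : k)))
      (G := (-1 : k) ^ (p * q) • (sh (k := k) (α := β) (β := α)).flip (single s (1 : k)))
      (fun t ht => by
        simp only [LinearMap.comp_apply, LinearMap.flip_apply, LinearMap.smul_apply, sh_single]
        exact swap_Sh s t p q hs ht) hc'
    simpa only [LinearMap.comp_apply, LinearMap.flip_apply, LinearMap.smul_apply] using this
  have := eq_of_mem (P := Ln (p + 1))
    (F := mp Prod.swap ∘ₗ (sh (k := k) (α := α) (β := β)).flip c')
    (G := (-1 : k) ^ (p * q) • (sh (k := k) (α := β) (β := α)) c')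
    (fun s hs => by
      simp only [LinearMap.comp_apply, LinearMap.flip_apply, LinearMap.smul_apply]
      exact h1 s hs) hc
  simpa only [LinearMap.comp_apply, LinearMap.flip_apply, LinearMap.smul_apply] using this

/-- Associativity for lists. -/
theorem assoc_Sh (n : ℕ) : ∀ (s : List α) (t : List β) (u : List γ),
    s.length + t.length + u.length = n →
    mp (Equiv.prodAssoc α β γ) (sh (Sh s t) (single u (1 : k))) = sh (single s 1) (Sh t u) := by
  induction n using Nat.strong_induction_on with
  | _ n ih =>
    intro s t u hn
    rcases s with _ | ⟨a, s⟩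
    · rw [Sh_nil_left, map_zero, LinearMap.zero_apply, map_zero, sh_nil_left]
    rcases t with _ | ⟨b, t⟩
    · rw [Sh_nil_left, Sh_nil_right, map_zero, map_zero, LinearMap.zero_apply, map_zero]
    rcases u with _ | ⟨c, u⟩
    · rw [sh_nil_right, Sh_nil_right, map_zero, map_zero]
    simp only [List.length_cons] at hn
    by_cases h0 : s = [] ∧ t = [] ∧ u = []
    · obtain ⟨rfl, rfl, rfl⟩ := h0
      rw [Sh_one, Sh_one, sh_single, sh_single, Sh_one, Sh_one, mp_single]
      rfl
    -- the recursions
    set X : Ch k (α × β) := Sh s (b :: t) + (-1 : k) ^ s.length • Sh (a :: s) t +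
        if s = [] ∧ t = [] then single [] 1 else 0 with hX
    set Y : Ch k (β × γ) := Sh t (c :: u) + (-1 : k) ^ t.length • Sh (b :: t) u +
        if t = [] ∧ u = [] then single [] 1 else 0 with hY
    have eX : (Sh (a :: s) (b :: t) : Ch k (α × β)) = cons (a, b) X := by rw [Sh]
    have eY : (Sh (b :: t) (c :: u) : Ch k (β × γ)) = cons (b, c) Y := by rw [Sh]
    have mX : X ∈ Sp k (Ln (s.length + t.length)) := by
      refine Submodule.add_mem _ (Submodule.add_mem _ ?_ (Submodule.smul_mem _ _ ?_)) ?_
      · exact Sp_mono (fun l hl => by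
          simp only [List.length_cons, Ln] at hl ⊢; omega) (Sh_memLen s (b :: t))
      · exact Sp_mono (fun l hl => by
          simp only [List.length_cons, Ln] at hl ⊢; omega) (Sh_memLen (a :: s) t)
      · split_ifs with h
        · obtain ⟨rfl, rfl⟩ := h
          exact single_mem (by simp [Ln]) _
        · exact Submodule.zero_mem _
    have mY : Y ∈ Sp k (Ln (t.length + u.length)) := by
      refine Submodule.add_mem _ (Submodule.add_mem _ ?_ (Submodule.smul_mem _ _ ?_)) ?_
      · exact Sp_mono (fun l hl => by
          simp only [List.length_cons, Ln] at hl ⊢; omega) (Sh_memLen t (c :: u))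
      · exact Sp_mono (fun l hl => by
          simp only [List.length_cons, Ln] at hl ⊢; omega) (Sh_memLen (b :: t) u)
      · split_ifs with h
        · obtain ⟨rfl, rfl⟩ := h
          exact single_mem (by simp [Ln]) _
        · exact Submodule.zero_mem _
    have hl : s.length + t.length ≠ 0 ∨ u ≠ [] := by
      by_contra h
      push Not at h
      apply h0
      refine ⟨List.length_eq_zero_iff.1 (by omega), List.length_eq_zero_iff.1 (by omega), h.2⟩
    have hr : t.length + u.length ≠ 0 ∨ s ≠ [] := by
      by_contra h
      push Not at h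
      apply h0
      refine ⟨h.2, List.length_eq_zero_iff.1 (by omega), List.length_eq_zero_iff.1 (by omega)⟩
    have i1 : mp (Equiv.prodAssoc α β γ) (sh X (single (c :: u) (1 : k))) =
        sh (single s 1) (Sh (b :: t) (c :: u)) +
          (-1 : k) ^ s.length • sh (single (a :: s) 1) (Sh t (c :: u)) := by
      rw [hX, map_add, map_add, map_smul, LinearMap.add_apply, LinearMap.add_apply,
        LinearMap.smul_apply, map_add, map_add, map_smul,
        ih _ (by simp only [List.length_cons]; omega) s (b :: t) (c :: u) rfl,
        ih _ (by simp only [List.length_cons]; omega) (a :: s) t (c :: u) rfl]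
      have : mp (Equiv.prodAssoc α β γ) (sh (if s = [] ∧ t = [] then single [] 1 else 0 :
          Ch k (α × β)) (single (c :: u) (1 : k))) = 0 := by
        split_ifs
        · rw [sh_nil_left, map_zero]
        · rw [map_zero, LinearMap.zero_apply, map_zero]
      rw [this, add_zero]
    have i2 : mp (Equiv.prodAssoc α β γ) (sh (cons (a, b) X) (single u (1 : k))) =
        sh (single (a :: s) 1) (Sh (b :: t) u) := by
      rw [← eX]
      exact ih _ (by simp only [List.length_cons]; omega) (a :: s) (b :: t) u rfl
    have i3 : sh (single (a :: s) (1 : k)) Y = sh (single (a :: s) 1) (Sh t (c :: u)) +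
        (-1 : k) ^ t.length • sh (single (a :: s) 1) (Sh (b :: t) u) := by
      rw [hY, map_add, map_add, map_smul]
      have : sh (single (a :: s) (1 : k)) (if t = [] ∧ u = [] then single [] 1 else 0 :
          Ch k (β × γ)) = 0 := by
        split_ifs
        · exact sh_nil_right _
        · exact map_zero _
      rw [this, add_zero]
    rw [eX, sh_cons_cons_left (a, b) c u mX hl, mp_cons, map_add, map_smul, i1, i2, eY,
      sh_cons_cons_right a s (b, c) mY hr, i3, ← eY]
    change cons (a, (b, c)) _ = cons (a, (b, c)) _
    congr 1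
    rw [smul_add, smul_smul, ← pow_add, add_assoc]

/-- **Associativity.** -/
theorem sh_assoc' (a : Ch k α) (b : Ch k β) (c : Ch k γ) :
    mp (Equiv.prodAssoc α β γ) (sh (sh a b) c) = sh a (sh b c) := by
  have h1 : ∀ (s : List α) (t : List β), mp (Equiv.prodAssoc α β γ) (sh (Sh s t) c) =
      sh (single s (1 : k)) (sh (single t 1) c) := by
    intro s t
    have := lin_ext_apply (f := mp (Equiv.prodAssoc α β γ) ∘ₗ (sh (k := k)) (Sh s t))
      (g := (sh (k := k)) (single s (1 : k)) ∘ₗ (sh (k := k)) (single t (1 : k)))
      (fun u => by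
        simp only [LinearMap.comp_apply, sh_single]
        exact assoc_Sh _ s t u rfl) c
    simpa only [LinearMap.comp_apply] using this
  have h2 : ∀ s : List α, mp (Equiv.prodAssoc α β γ) (sh (sh (single s (1 : k)) b) c) =
      sh (single s (1 : k)) (sh b c) := by
    intro s
    have := lin_ext_apply
      (f := mp (Equiv.prodAssoc α β γ) ∘ₗ (sh (k := k)).flip c ∘ₗ (sh (k := k)) (single s (1 : k)))
      (g := (sh (k := k)) (single s (1 : k)) ∘ₗ (sh (k := k)).flip c)
      (fun t => by
        simp only [LinearMap.comp_apply, LinearMap.flip_apply, sh_single]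
        exact h1 s t) b
    simpa only [LinearMap.comp_apply, LinearMap.flip_apply] using this
  have := lin_ext_apply
    (f := mp (Equiv.prodAssoc α β γ) ∘ₗ (sh (k := k)).flip c ∘ₗ (sh (k := k)).flip b)
    (g := (sh (k := k)).flip (sh b c))
    (fun s => by
      simp only [LinearMap.comp_apply, LinearMap.flip_apply]
      exact h2 s) a
  simpa only [LinearMap.comp_apply, LinearMap.flip_apply] using this

end Vale.Agent.P216.Sl
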