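import Vale.Agent.P216.H133C.Cell
import Vale.Agent.P216.H901.W3
import Vale.Agent.P216.H83.Les
import Vale.Agent.P216.MV337.Sys

/-!
# P216-C : the cohomology of a space with a handle decomposition

`M` compact metric, `C : CellDec M d h`, `k` a field of characteristic `≠ 2`.

* `cellE`: `H^q(D, S) ≃ H^q(I^n, ∂I^n)` for a cell; `relE`: strong excision.
* `relVan`: `H^q(L (j + 1), L j) = 0` for `q ≠ d j`; `relNe`: it is not `0` for `q = d j`.
* `LVan'`, `LVan`, `c1`: vanishing of `H^q(L j)`.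
* `exists_ne` (`c2`): `H^{d j}(L (j + 1)) ≠ 0`, `H^{d h}(M) ≠ 0`, if `2 ≤ d`.
* `res_surj`, `resL2`: restriction `H^q(M) → H^q(L j)`.
-/

set_option linter.all false

open Set

namespace Vale.Agent.P216.H985C

open Vale.Agent.P216.AS Vale.Agent.P216.H901 Vale.Agent.P216.H83 Vale.Agent.P216.H133C
open Vale.Agent.P216.MV337 (enc dec1 dec2 dec1_enc dec2_enc enc_dec enc_cont dec1_cont dec2_cont
  mem_cub mem_bdc map_of_cont)

/-! ### A point -/

section Point

variable {k : Type} [Field k]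

/-- the cohomology of a point in positive degrees -/
theorem pt_succ (q : ℕ) (x : Hr (tr Unit) (on k) (univ : Set Unit) ∅ (q + 1)) : x = 0 := by
  obtain ⟨c, hc, rfl⟩ := H.exists_mk x
  obtain ⟨-, -, ε, hε, hcd⟩ := mem_Zc_rel.1 hc
  refine H.mk_eq_zero.2 (mem_Bc_succ.2 ⟨fun y => c (Matrix.vecCons () y),
    ⟨fun i => i.elim, 1, one_pos, fun y hy => absurd (hy.1 0) (notMem_empty _)⟩,
    fun i => i.elim, 1, one_pos, fun y _ => ?_⟩)
  have h1 := hcd (Matrix.vecCons () y) ⟨fun _ => mem_univ _, fun i j => by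
    rw [Subsingleton.elim (Matrix.vecCons () y i) (Matrix.vecCons () y j), dist_self]; exact hε⟩
  rw [P265.AS.d_cons] at h1
  exact h1

/-- the cohomology of a point in degree `0` -/
theorem pt_zero_ne : ∃ x : Hr (tr Unit) (on k) (univ : Set Unit) ∅ 0, x ≠ 0 := by
  refine ⟨H.mk (fun _ => 1) (mem_Zc_rel.2 ⟨fun i => i.elim, ⟨1, one_pos, fun y hy =>
    absurd (hy.1 0) (notMem_empty _)⟩, 1, one_pos, fun y _ => by simp [P265.AS.d]⟩), fun h => ?_⟩
  rw [H.mk_eq_zero, mem_Bc_zero] at h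
  obtain ⟨-, ε, hε, h⟩ := h
  have := h (fun _ => ()) ⟨fun _ => mem_univ _, fun _ _ => by rw [dist_self]; exact hε⟩
  exact one_ne_zero this

end Point

/-! ### A cell -/

section CellE

variable {M : Type} [MetricSpace M] {n : ℕ} {D S : Set M} {k : Type} [Field k]

/-- the map to the cube -/
def toC (C : Cell M n D S) (x : M) : Cu Unit n := enc n () (C.φ x)

/-- the map from the cube -/
def ofC (C : Cell M n D S) (z : Cu Unit n) : M := C.ψ (dec2 n z)

theorem isCompact_univ_unit : IsCompact (univ : Set Unit) := isCompact_univ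

theorem toC_map (C : Cell M n D S) (hD : IsCompact D) :
    IsMap (tr M) (tr (Cu Unit n)) D (cub n univ) (toC C) :=
  map_of_cont hD (enc_cont n continuousOn_const C.φ_cont) fun x hx => by
    unfold toC
    rw [mem_cub, dec2_enc]
    exact ⟨mem_univ _, C.φ_mem x hx⟩

theorem toC_sub (C : Cell M n D S) (hS : S ⊆ D) : MapsTo (toC C) S (bdc n univ) := fun x hx => by
  unfold toC
  rw [mem_bdc, mem_cub, dec2_enc]
  exact ⟨⟨mem_univ _, C.φ_mem x (hS hx)⟩, C.φ_bd x hx⟩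

theorem isCompact_cu (n : ℕ) : IsCompact (cub n (univ : Set Unit)) := by
  induction n with
  | zero => exact isCompact_univ_unit
  | succ n ih =>
    have h1 : IsCompact ((cub n (univ : Set Unit)) ×ˢ Icc (0 : ℝ) 1 : Set (Cu Unit n × ℝ)) :=
      ih.prod isCompact_Icc
    exact h1

theorem ofC_map (C : Cell M n D S) :
    IsMap (tr (Cu Unit n)) (tr M) (cub n univ) D (ofC C) :=
  map_of_cont (isCompact_cu n) (C.ψ_cont.comp (dec2_cont n).continuousOn fun z hz =>
    ((mem_cub n).1 hz).2) fun z hz => C.ψ_mem _ ((mem_cub n).1 hz).2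

theorem ofC_sub (C : Cell M n D S) : MapsTo (ofC C) (bdc n univ) S := fun z hz => by
  obtain ⟨h1, h2⟩ := (mem_bdc n).1 hz
  exact C.ψ_bd _ ((mem_cub n).1 h1).2 h2

/-- **a cell has the cohomology of `(I^n, ∂I^n)`** -/
noncomputable def cellE (C : Cell M n D S) (hD : IsCompact D) (hS : S ⊆ D) (q : ℕ) :
    Hr (tr M) (on k) D S q ≃ₗ[k]
      Hr (tr (Cu Unit n)) (on k) (cub n univ) (bdc n univ) q :=
  LinearEquiv.ofLinear (pullR (on k) (ofC_map C) (bdc_subset n univ) (ofC_sub C) q)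
    (pullR (on k) (toC_map C hD) hS (toC_sub C hS) q)
    (LinearMap.ext fun x => by
      rw [LinearMap.comp_apply, ← pullR_comp (toC_map C hD) (ofC_map C) (bdc_subset n univ) hS
        (ofC_sub C) (toC_sub C hS), pullR_eq_resR subset_rfl subset_rfl (bdc_subset n univ)]
      · exact Hinc_refl _ _ x
      · intro z hz
        change enc n () (C.φ (C.ψ (dec2 n z))) = z
        rw [C.φψ _ ((mem_cub n).1 hz).2]
        have := enc_dec n z
        rwa [Subsingleton.elim (dec1 n z) ()] at this)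
    (LinearMap.ext fun x => by
      have hH : IsHtpy (tr M) (tr M) D D fun s x => C.K (x, s) :=
        IsHtpy.of_continuousOn hD (C.K_cont.comp (continuous_snd.prodMk
          continuous_fst).continuousOn fun p hp => ⟨hp.2, hp.1⟩)
          (fun s hs x hx => C.K_mem x hx s hs) fun s _ i => i.elim
      have hB : ∀ s ∈ Icc (0 : ℝ) 1, MapsTo (fun x => C.K (x, s)) S S := fun s hs x hx =>
        C.K_bd x hx s hs
      rw [LinearMap.comp_apply, ← pullR_comp (ofC_map C) (toC_map C hD) hS (bdc_subset n univ)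
        (toC_sub C hS) (ofC_sub C),
        pullR_congr (h₁ := hH.one) (hA := hS) (hf₁ := hB 1 ⟨zero_le_one, le_rfl⟩),
        pullR_homotopy hH hS hB q, pullR_eq_resR subset_rfl subset_rfl hS]
      · exact Hinc_refl _ _ x
      · exact fun x hx => C.K_zero x hx
      · intro x hx
        change C.ψ (dec2 n (enc n () (C.φ x))) = C.K (x, 1)
        rw [dec2_enc, C.K_one x hx])

/-- a cell of dimension `n` has no cohomology in the degrees `≠ n` -/
theorem cell_van (h2 : (2 : k) ≠ 0) (C : Cell M n D S) (hD : IsCompact D) (hS : S ⊆ D) {q : ℕ}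
    (hq : q ≠ n) (x : Hr (tr M) (on k) D S q) : x = 0 := by
  apply (cellE C hD hS q).injective
  rw [map_zero]
  rcases lt_or_gt_of_ne hq with h | h
  · exact cub_low h2 univ n q h _
  · obtain ⟨r, rfl⟩ : ∃ r, q = r + 1 + n := ⟨q - 1 - n, by omega⟩
    apply (susN h2 (univ : Set Unit) (r + 1) n).injective
    rw [map_zero]
    exact pt_succ r _

/-- a cell of dimension `n` has cohomology in the degree `n` -/
theorem cell_ne (h2 : (2 : k) ≠ 0) (C : Cell M n D S) (hD : IsCompact D) (hS : S ⊆ D) :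
    ∃ x : Hr (tr M) (on k) D S n, x ≠ 0 := by
  obtain ⟨y, hy⟩ := pt_zero_ne (k := k)
  have h := (susN h2 (univ : Set Unit) 0 n).symm.map_ne_zero_iff.2 hy
  have e : ∃ z : Hr (tr (Cu Unit n)) (on k) (cub n univ) (bdc n univ) n, z ≠ 0 := by
    have h3 : ∃ z : Hr (tr (Cu Unit n)) (on k) (cub n univ) (bdc n univ) (0 + n), z ≠ 0 :=
      ⟨_, h⟩
    rwa [zero_add] at h3
  obtain ⟨z, hz⟩ := e
  exact ⟨(cellE C hD hS n).symm z, (cellE C hD hS n).symm.map_ne_zero_iff.2 hz⟩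

end CellE

/-! ### The handle decomposition -/

section Dec

variable {M : Type} [MetricSpace M] [CompactSpace M] {d h : ℕ} {k : Type} [Field k]

/-- strong excision -/
noncomputable def relE (h2 : (2 : k) ≠ 0) (C : CellDec M d h) (j q : ℕ) :
    Hr (tr M) (on k) (C.L (j + 1)) (C.L j) q ≃ₗ[k] Hr (tr M) (on k) (C.D j) (C.D j ∩ C.L j) q :=
  LinearEquiv.ofBijective
    (resR (by rw [C.L_succ]; exact subset_union_right) inter_subset_right q)
    (strong_excision (tw_tr h2 _) (C.isClosed_L j).isCompact (C.closed j).isCompact (inv_tr _)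
      (inv_tr _) (C.L_succ j) (inter_comm _ _) _ _ q)

/-- `H^q(L (j + 1), L j) = 0` for `q ≠ d j`. -/
theorem relVan (h2 : (2 : k) ≠ 0) (C : CellDec M d h) {j : ℕ} (hj : j ≤ h) {q : ℕ}
    (hq : q ≠ d * j) (x : Hr (tr M) (on k) (C.L (j + 1)) (C.L j) q) : x = 0 := by
  apply (relE h2 C j q).injective
  rw [map_zero]
  exact cell_van h2 (C.cellL hj) (C.closed j).isCompact inter_subset_left hq _

/-- `H^{d j}(L (j + 1), L j) ≠ 0`. -/
theorem relNe (h2 : (2 : k) ≠ 0) (C : CellDec M d h) {j : ℕ} (hj : j ≤ h) :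
    ∃ x : Hr (tr M) (on k) (C.L (j + 1)) (C.L j) (d * j), x ≠ 0 := by
  obtain ⟨x, hx⟩ := cell_ne h2 (C.cellL hj) (C.closed j).isCompact inter_subset_left
  exact ⟨(relE h2 C j (d * j)).symm x, (relE h2 C j (d * j)).symm.map_ne_zero_iff.2 hx⟩

theorem empty_van {q : ℕ} (x : Hr (tr M) (on k) (∅ : Set M) ∅ q) : x = 0 := by
  obtain ⟨c, hc, rfl⟩ := H.exists_mk x
  exact H.mk_eq_zero.2 (T_le_Bc _ _ _ hc.1)

/-- `H^q(L j) = 0` if `q ≠ d i` for all `i < j`. -/
theorem LVan' (h2 : (2 : k) ≠ 0) (C : CellDec M d h) : ∀ (j : ℕ), j ≤ h + 1 → ∀ q : ℕ,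
    (∀ i < j, q ≠ d * i) → ∀ x : Hr (tr M) (on k) (C.L j) ∅ q, x = 0 := by
  intro j
  induction j with
  | zero =>
    intro _ q _
    rw [C.L_zero]
    exact fun x => empty_van x
  | succ j ih =>
    intro hj q hq x
    have h1 : lesB k (C.L_mono (Nat.le_succ j)) q x = 0 :=
      ih (by omega) q (fun i hi => hq i (by omega)) _
    obtain ⟨y, rfl⟩ := (les_ex1 k (C.L_mono (Nat.le_succ j)) q x).1 h1
    rw [relVan h2 C (by omega) (hq j (Nat.lt_succ_self j)) y, map_zero]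

/-- `H^q(L j) = 0` if `d` does not divide `q`. -/
theorem LVan (h2 : (2 : k) ≠ 0) (C : CellDec M d h) {j : ℕ} (hj : j ≤ h + 1) {q : ℕ}
    (hq : ¬ d ∣ q) (x : Hr (tr M) (on k) (C.L j) ∅ q) : x = 0 :=
  LVan' h2 C j hj q (fun i _ e => hq ⟨i, e⟩) x

/-- `H^q(L j) = 0` if `q > d (j - 1)`, `1 ≤ j`. -/
theorem c1 (h2 : (2 : k) ≠ 0) (C : CellDec M d h) {j : ℕ} (hj : j ≤ h + 1) {q : ℕ}
    (hq : d * (j - 1) < q) (x : Hr (tr M) (on k) (C.L j) ∅ q) : x = 0 :=
  LVan' h2 C j hj q (fun i hi e => by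
    have : d * i ≤ d * (j - 1) := Nat.mul_le_mul_left _ (by omega)
    omega) x

/-- `H^q(M) = 0` for `q > d h`. -/
theorem top_van (h2 : (2 : k) ≠ 0) (C : CellDec M d h) {q : ℕ} (hq : d * h < q)
    (x : Hr (tr M) (on k) (univ : Set M) ∅ q) : x = 0 := by
  have e := C.L_top
  have := c1 (k := k) h2 C (le_refl (h + 1)) (q := q) hq
  rw [e] at this
  exact this x

/-- `H^{d j}(L (j + 1), L j) → H^{d j}(L (j + 1))` is injective. -/
theorem lesA_inj (hd : 2 ≤ d) (h2 : (2 : k) ≠ 0) (C : CellDec M d h) {j : ℕ} (hj : j ≤ h) :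
    Function.Injective (lesA k (C.L (j + 1)) (C.L j) (d * j)) := by
  rcases Nat.eq_zero_or_pos j with rfl | hj0
  · exact lesA_zero_injective (k := k) (C.L (0 + 1)) (C.L 0)
  · obtain ⟨r, hr⟩ : ∃ r, d * j = r + 1 := ⟨d * j - 1, by
      have := Nat.mul_pos (by omega : 0 < d) hj0
      omega⟩
    rw [hr, injective_iff_map_eq_zero]
    intro x hx
    obtain ⟨y, rfl⟩ := (les_ex3 k (C.L_mono (Nat.le_succ j)) r x).1 hx
    have : y = 0 := LVan' h2 C j (by omega) r (fun i hi e => by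
      have h3 : d * (i + 1) ≤ d * j := Nat.mul_le_mul_left _ hi
      rw [Nat.mul_succ, hr, e] at h3
      omega) y
    rw [this, map_zero]

/-- `H^{d j}(L (j + 1)) ≠ 0`. -/
theorem exists_ne (hd : 2 ≤ d) (h2 : (2 : k) ≠ 0) (C : CellDec M d h) {j : ℕ} (hj : j ≤ h) :
    ∃ x : Hr (tr M) (on k) (C.L (j + 1)) ∅ (d * j), x ≠ 0 := by
  obtain ⟨x, hx⟩ := relNe h2 C hj
  exact ⟨_, fun h0 => hx (lesA_inj hd h2 C hj (h0.trans (map_zero _).symm))⟩

/-- `H^{d h}(M) ≠ 0`. -/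
theorem c2 (hd : 2 ≤ d) (h2 : (2 : k) ≠ 0) (C : CellDec M d h) :
    ∃ x : Hr (tr M) (on k) (univ : Set M) ∅ (d * h), x ≠ 0 := by
  have := exists_ne hd h2 C (le_refl h)
  rwa [C.L_top] at this

/-- The restriction `H^q(L (j + 1)) → H^q(L j)` is surjective if `q + 1 ≠ d j`. -/
theorem res_surj_step (h2 : (2 : k) ≠ 0) (C : CellDec M d h) {j : ℕ} (hj : j ≤ h) {q : ℕ}
    (hq : q + 1 ≠ d * j) : Function.Surjective (lesB k (C.L_mono (Nat.le_succ j)) q) := fun y =>
  (les_ex2 k (C.L_mono (Nat.le_succ j)) q y).1 (relVan h2 C hj hq _)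

/-- The restriction `H^q(L j') → H^q(L j)` is surjective if `q + 1 ≠ d i` for `j ≤ i < j'`. -/
theorem res_surj (h2 : (2 : k) ≠ 0) (C : CellDec M d h) {j : ℕ} {q : ℕ} : ∀ (m : ℕ),
    j + m ≤ h + 1 → (∀ i, j ≤ i → i < j + m → q + 1 ≠ d * i) → Function.Surjective
      (resR (C.L_mono (Nat.le_add_right j m)) subset_rfl q :
        Hr (tr M) (on k) (C.L (j + m)) ∅ q →ₗ[k] Hr (tr M) (on k) (C.L j) ∅ q) := by
  intro m
  induction m with
  | zero => exact fun _ _ x => ⟨x, Hinc_refl _ _ x⟩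
  | succ m ih =>
    intro hj hq x
    obtain ⟨y, rfl⟩ := ih (by omega) (fun i h1 h3 => hq i h1 (by omega)) x
    obtain ⟨z, rfl⟩ := res_surj_step h2 C (j := j + m) (by omega)
      (hq (j + m) (by omega) (by omega)) y
    exact ⟨z, (resR_resR (C.L_mono (Nat.le_succ (j + m))) (C.L_mono (Nat.le_add_right j m))
      subset_rfl subset_rfl z).symm⟩

/-- the same from `M` -/
theorem res_surj_top (h2 : (2 : k) ≠ 0) (C : CellDec M d h) {j : ℕ} (hj : j ≤ h + 1) {q : ℕ}
    (hq : ∀ i, j ≤ i → i ≤ h → q + 1 ≠ d * i) : Function.Surjective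
      (resR (subset_univ _) subset_rfl q :
        Hr (tr M) (on k) (univ : Set M) ∅ q →ₗ[k] Hr (tr M) (on k) (C.L j) ∅ q) := by
  intro x
  obtain ⟨y, rfl⟩ := res_surj h2 C (j := j) (q := q) (h + 1 - j) (by omega)
    (fun i h1 h3 => hq i h1 (by omega)) x
  have e : C.L (j + (h + 1 - j)) = univ := by
    rw [show j + (h + 1 - j) = h + 1 by omega]
    exact C.L_top
  exact ⟨resR e.ge subset_rfl q y, Hinc_comp _ _ _ _ y⟩

/-- A class of `H^d(M)` which is not `0` on `L 2`. -/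
theorem resL2 (hh : 1 ≤ h) (hd : 2 ≤ d) (h2 : (2 : k) ≠ 0) (C : CellDec M d h) :
    ∃ x : Hr (tr M) (on k) (univ : Set M) ∅ d,
      (resR (subset_univ (C.L 2)) subset_rfl d : _ →ₗ[k] Hr (tr M) (on k) (C.L 2) ∅ d) x ≠ 0 := by
  obtain ⟨y, hy⟩ := exists_ne hd h2 C (j := 1) hh
  have h1 : ∃ y : Hr (tr M) (on k) (C.L 2) ∅ d, y ≠ 0 := by
    have : ∃ y : Hr (tr M) (on k) (C.L (1 + 1)) ∅ (d * 1), y ≠ 0 := ⟨y, hy⟩
    rwa [mul_one] at this
  obtain ⟨y, hy⟩ := h1
  obtain ⟨x, rfl⟩ := res_surj_top h2 C (j := 2) (by omega) (q := d) (fun i h1 _ e => by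
    have : d * 2 ≤ d * i := Nat.mul_le_mul_left _ h1
    omega) y
  exact ⟨x, hy⟩

end Dec

end Vale.Agent.P216.H985C
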