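import Vale.Agent.P216.H133C.ThomDefs

/-!
# P216-C, block [THOM], piece T4

Every class of `HP × HP` relative to the orthogonal pairs comes from a class relative to the pairs
with `tr (a b) ≤ c`, `c < 1`: homotopy `(a, b) ↦ (a, (1 - r a) b (1 - r a) / (1 - (2 r - r²) t))`,
`t = tr (a b)`, `r = s σ(t)` with `σ = 1` for `t ≤ c` and `σ 1 = 0`.
-/

open Set Quaternion

namespace Vale.Agent.P216.H985C

open Vale.Agent.P216.AS Vale.Agent.P216.H901 Vale.Agent.P216.H83 Vale.Agent.P216.H133C

variable {N : ℕ}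

/-- `⟨u, v⟩` -/
noncomputable def ip (u v : Fin N → Quaternion ℝ) : Quaternion ℝ := ∑ i, star (u i) * v i

theorem star_ip (u v : Fin N → Quaternion ℝ) : star (ip u v) = ip v u := by
  unfold ip
  rw [star_sum]
  exact Finset.sum_congr rfl fun i _ => by rw [star_mul, star_star]

theorem re_mul_comm (x y : Quaternion ℝ) : (x * y).re = (y * x).re := by
  simp only [Quaternion.re_mul]
  ring

theorem re_sum {ι : Type*} (s : Finset ι) (f : ι → Quaternion ℝ) :
    (∑ i ∈ s, f i).re = ∑ i ∈ s, (f i).re := by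
  classical
  induction s using Finset.induction_on with
  | empty => simp
  | insert a s ha ih => rw [Finset.sum_insert ha, Finset.sum_insert ha, Quaternion.re_add, ih]

theorem ip_self (u : Fin N → Quaternion ℝ) : ip u u = ((ns u : ℝ) : Quaternion ℝ) := by
  unfold ip ns
  have : ((∑ i, ‖u i‖ ^ 2 : ℝ) : Quaternion ℝ) = ∑ i, ((‖u i‖ ^ 2 : ℝ) : Quaternion ℝ) := by
    classical
    induction (Finset.univ : Finset (Fin N)) using Finset.induction_on with
    | empty => simp
    | insert a s ha ih => rw [Finset.sum_insert ha, Finset.sum_insert ha, Quaternion.coe_add, ih]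
  rw [this]
  exact Finset.sum_congr rfl fun i _ => star_mul_self' _

theorem sum_ip (u v : Fin N → Quaternion ℝ) (q : Quaternion ℝ) :
    ∑ i, (u i * q * star (v i)).re = (q * ip v u).re := by
  unfold ip
  rw [Finset.mul_sum, re_sum]
  refine Finset.sum_congr rfl fun i _ => ?_
  rw [mul_assoc, re_mul_comm, mul_assoc]

theorem tp_prj (u v : Fin N → Quaternion ℝ) : tp (prj u) (prj v) = ‖ip u v‖ ^ 2 := by
  have h1 : ∀ i, ∑ j, (prj u i j * prj v j i).re = (u i * ip u v * star (v i)).re := by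
    intro i
    have : u i * ip u v * star (v i) = ∑ j, prj u i j * prj v j i := by
      unfold ip prj
      rw [Finset.mul_sum, Finset.sum_mul]
      exact Finset.sum_congr rfl fun j _ => by simp only [mul_assoc]
    rw [this, re_sum]
  unfold tp
  rw [Finset.sum_congr rfl fun i _ => h1 i, sum_ip,
    show ip v u = star (ip u v) from (star_ip u v).symm, mul_star_self', Quaternion.re_coe]

theorem tp_smul (c : ℝ) (a b : Mt N) : tp a (c • b) = c * tp a b := by
  unfold tp
  rw [Finset.mul_sum]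
  refine Finset.sum_congr rfl fun i _ => ?_
  rw [Finset.mul_sum]
  refine Finset.sum_congr rfl fun j _ => ?_
  rw [Pi.smul_apply, Pi.smul_apply, mul_smul_comm, Quaternion.re_smul, smul_eq_mul]

theorem continuous_tp : Continuous fun p : Mt N × Mt N => tp p.1 p.2 := by
  unfold tp
  refine continuous_finsetSum _ fun i _ => continuous_finsetSum _ fun j _ => ?_
  refine Quaternion.continuous_re.comp ?_
  exact ((continuous_apply_apply i j).comp continuous_fst).mul
    ((continuous_apply_apply j i).comp continuous_snd)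

/-- `(1 - r a) b (1 - r a)` -/
noncomputable def nb (r : ℝ) (a b : Mt N) : Mt N := fun i j =>
  b i j - r • (∑ k, a i k * b k j) - r • (∑ k, b i k * a k j) +
    (r ^ 2) • (∑ k, ∑ l, a i k * b k l * a l j)

theorem continuous_nb : Continuous fun p : ℝ × (Mt N × Mt N) => nb p.1 p.2.1 p.2.2 := by
  have ha : ∀ i j : Fin N, Continuous fun p : ℝ × (Mt N × Mt N) => p.2.1 i j := fun i j =>
    (continuous_apply_apply i j).comp (continuous_fst.comp continuous_snd)
  have hb : ∀ i j : Fin N, Continuous fun p : ℝ × (Mt N × Mt N) => p.2.2 i j := fun i j =>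
    (continuous_apply_apply i j).comp (continuous_snd.comp continuous_snd)
  unfold nb
  refine continuous_pi fun i => continuous_pi fun j => ?_
  refine (((hb i j).sub (continuous_fst.smul ?_)).sub (continuous_fst.smul ?_)).add
    ((continuous_fst.pow 2).smul ?_)
  · exact continuous_finsetSum _ fun k _ => (ha i k).mul (hb k j)
  · exact continuous_finsetSum _ fun k _ => (hb i k).mul (ha k j)
  · exact continuous_finsetSum _ fun k _ => continuous_finsetSum _ fun l _ =>
      ((ha i k).mul (hb k l)).mul (ha l j)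

/-- `v - r u ⟨u, v⟩` -/
noncomputable def wr (r : ℝ) (u v : Fin N → Quaternion ℝ) : Fin N → Quaternion ℝ :=
  fun i => v i - r • (u i * ip u v)

theorem nb_prj (r : ℝ) (u v : Fin N → Quaternion ℝ) : nb r (prj u) (prj v) = prj (wr r u v) := by
  funext i j
  have e1 : ∑ k, prj u i k * prj v k j = u i * ip u v * star (v j) := by
    unfold ip prj
    rw [Finset.mul_sum, Finset.sum_mul]
    exact Finset.sum_congr rfl fun k _ => by simp only [mul_assoc]
  have e2 : ∑ k, prj v i k * prj u k j = v i * star (ip u v) * star (u j) := by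
    rw [star_ip]
    unfold ip prj
    rw [Finset.mul_sum, Finset.sum_mul]
    exact Finset.sum_congr rfl fun k _ => by simp only [mul_assoc]
  have e3 : ∑ k, ∑ l, prj u i k * prj v k l * prj u l j =
      u i * ip u v * star (ip u v) * star (u j) := by
    rw [star_ip]
    have : ∀ k, ∑ l, prj u i k * prj v k l * prj u l j =
        u i * (star (u k) * v k) * (ip v u * star (u j)) := by
      intro k
      unfold ip prj
      rw [Finset.sum_mul, Finset.mul_sum]
      exact Finset.sum_congr rfl fun l _ => by simp only [mul_assoc]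
    rw [Finset.sum_congr rfl fun k _ => this k, ← Finset.sum_mul, ← Finset.mul_sum]
    simp only [mul_assoc]
    rfl
  unfold nb
  rw [e1, e2, e3]
  unfold wr prj
  simp only [star_sub, Quaternion.star_smul, star_mul, sub_mul, mul_sub, smul_mul_assoc,
    mul_smul_comm, mul_assoc]
  module

theorem ns_wr (r : ℝ) {u v : Fin N → Quaternion ℝ} (hu : ns u = 1) (hv : ns v = 1) :
    ns (wr r u v) = 1 - (2 * r - r ^ 2) * ‖ip u v‖ ^ 2 := by
  have h1 : ∀ x y : Quaternion ℝ, ‖x - r • y‖ ^ 2 =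
      ‖x‖ ^ 2 - 2 * r * (y * star x).re + r ^ 2 * ‖y‖ ^ 2 := by
    intro x y
    have e : ∀ z : Quaternion ℝ, ‖z‖ ^ 2 = (z * star z).re := fun z => by
      rw [mul_star_self', Quaternion.re_coe]
    rw [e, e, e, star_sub, Quaternion.star_smul, sub_mul, mul_sub, mul_sub, smul_mul_assoc,
      smul_mul_assoc, mul_smul_comm, mul_smul_comm]
    have e2 : (x * star y).re = (y * star x).re := by
      have : star (y * star x) = x * star y := by rw [star_mul, star_star]
      rw [← this, Quaternion.re_star]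
    simp only [Quaternion.re_sub, Quaternion.re_smul, smul_eq_mul, e2]
    ring
  have h2 : ns (wr r u v) = ns v - 2 * r * ∑ i, (u i * ip u v * star (v i)).re +
      r ^ 2 * ns fun i => u i * ip u v := by
    unfold ns wr
    rw [Finset.mul_sum, Finset.mul_sum, ← Finset.sum_sub_distrib, ← Finset.sum_add_distrib]
    exact Finset.sum_congr rfl fun i _ => h1 _ _
  rw [h2, sum_ip, show ip v u = star (ip u v) from (star_ip u v).symm, mul_star_self',
    Quaternion.re_coe, ns_mulr, hu, hv]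
  ring

theorem ip_wr (r : ℝ) {u v : Fin N → Quaternion ℝ} (hu : ns u = 1) :
    ip u (wr r u v) = (1 - r) • ip u v := by
  have h : ip u (wr r u v) = ip u v - r • (ip u u * ip u v) := by
    have e : ip u u * ip u v = ∑ i, star (u i) * (u i * ip u v) := by
      conv_lhs => rw [show ip u u = ∑ i, star (u i) * u i from rfl]
      rw [Finset.sum_mul]
      exact Finset.sum_congr rfl fun i _ => mul_assoc _ _ _
    rw [e, Finset.smul_sum]
    conv_lhs => unfold ip
    conv_rhs => rw [show ip u v = ∑ i, star (u i) * v i from rfl]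
    rw [← Finset.sum_sub_distrib]
    refine Finset.sum_congr rfl fun i _ => ?_
    unfold wr
    rw [mul_sub, mul_smul_comm]
    rfl
  rw [h, ip_self, hu, Quaternion.coe_one, one_mul, sub_smul, one_smul]

theorem ip_sq_le {u v : Fin N → Quaternion ℝ} (hu : ns u = 1) (hv : ns v = 1) :
    ‖ip u v‖ ^ 2 ≤ 1 := by
  have h := ns_wr 1 hu hv
  have h2 := ns_nonneg (wr 1 u v)
  rw [h] at h2
  linarith

/-- the denominator -/
noncomputable def dn (r t : ℝ) : ℝ := 1 - (2 * r - r ^ 2) * t

/-- the deformation of `b` -/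
noncomputable def nB (r : ℝ) (a b : Mt N) : Mt N := (dn r (tp a b))⁻¹ • nb r a b

theorem dn_pos {r t : ℝ} (h0 : 0 ≤ t) (h1 : t ≤ 1) (h : t < 1 ∨ (0 ≤ r ∧ r < 1)) :
    0 < dn r t := by
  have e : dn r t = (1 - t) + (1 - r) ^ 2 * t := by unfold dn; ring
  rw [e]
  rcases h with h | ⟨h2, h3⟩
  · have := mul_nonneg (sq_nonneg (1 - r)) h0
    linarith
  · rcases h1.eq_or_lt with rfl | h1
    · have : 0 < (1 - r) ^ 2 := by have : 0 < 1 - r := by linarith
                                   positivity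
      linarith
    · have := mul_nonneg (sq_nonneg (1 - r)) h0
      linarith

theorem tp_mem {a b : Mt N} (ha : a ∈ HP N) (hb : b ∈ HP N) : 0 ≤ tp a b ∧ tp a b ≤ 1 := by
  obtain ⟨u, hu, rfl⟩ := ha
  obtain ⟨v, hv, rfl⟩ := hb
  rw [tp_prj]
  exact ⟨by positivity, ip_sq_le hu hv⟩

theorem nB_mem {r : ℝ} {a b : Mt N} (ha : a ∈ HP N) (hb : b ∈ HP N) (h : 0 < dn r (tp a b)) :
    nB r a b ∈ HP N ∧ tp a (nB r a b) = (dn r (tp a b))⁻¹ * ((1 - r) ^ 2 * tp a b) := by
  obtain ⟨u, hu, rfl⟩ := ha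
  obtain ⟨v, hv, rfl⟩ := hb
  have h1 : dn r (tp (prj u) (prj v)) = ns (wr r u v) := by
    rw [ns_wr r hu hv, tp_prj]
    rfl
  have h2 : nB r (prj u) (prj v) = npr (wr r u v) := by
    rw [nB, h1, nb_prj]
    rfl
  constructor
  · rw [h2]
    exact npr_mem (h1 ▸ h)
  · rw [nB, nb_prj, tp_smul, tp_prj u (wr r u v), ip_wr r hu, tp_prj, norm_smul, mul_pow,
      Real.norm_eq_abs, sq_abs]

theorem nB_zero (a b : Mt N) : nB 0 a b = b := by
  unfold nB dn nb
  funext i j
  simp

/-- cut-off -/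
noncomputable def sg (c t : ℝ) : ℝ := min 1 ((1 - t) / (1 - c))

theorem continuous_sg (c : ℝ) : Continuous (sg c) := by
  unfold sg
  exact continuous_const.min ((continuous_const.sub continuous_id).div_const _)

theorem sg_of_le {c t : ℝ} (hc : c < 1) (h : t ≤ c) : sg c t = 1 := by
  unfold sg
  rw [min_eq_left]
  rw [le_div_iff₀ (by linarith)]
  linarith

theorem sg_nonneg {c t : ℝ} (hc : c < 1) (h : t ≤ 1) : 0 ≤ sg c t :=
  le_min zero_le_one (div_nonneg (by linarith) (by linarith))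

theorem sg_le_one (c t : ℝ) : sg c t ≤ 1 := min_le_left _ _

theorem sg_one (c : ℝ) : sg c 1 = 0 := by simp [sg]

/-- the homotopy -/
noncomputable def Ht (c s : ℝ) (p : Mt N × Mt N) : Mt N × Mt N :=
  (p.1, nB (s * sg c (tp p.1 p.2)) p.1 p.2)

theorem dn_Ht (c s : ℝ) {a b : Mt N} (ha : a ∈ HP N) (hb : b ∈ HP N) : 0 < dn (s * sg c (tp a b)) (tp a b) := by
  obtain ⟨h0, h1⟩ := tp_mem ha hb
  rcases h1.eq_or_lt with h | h
  · rw [h, sg_one, mul_zero]
    unfold dn
    norm_num
  · exact dn_pos h0 h1 (Or.inl h)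

theorem isHtpy_Ht (c : ℝ) :
    IsHtpy (tr (Mt N × Mt N)) (tr (Mt N × Mt N)) (HP N ×ˢ HP N) (HP N ×ˢ HP N) (Ht c) := by
  refine IsHtpy.of_continuousOn ((isCompact_HP N).prod (isCompact_HP N)) ?_ ?_ ?_
  · have ht : Continuous fun q : ℝ × (Mt N × Mt N) => tp q.2.1 q.2.2 :=
      continuous_tp.comp continuous_snd
    have hr : Continuous fun q : ℝ × (Mt N × Mt N) => q.1 * sg c (tp q.2.1 q.2.2) :=
      continuous_fst.mul ((continuous_sg c).comp ht)
    have h1 : Continuous fun q : ℝ × (Mt N × Mt N) => q.2.1 := continuous_fst.comp continuous_snd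
    refine h1.continuousOn.prodMk ?_
    have h2 : ContinuousOn (fun q : ℝ × (Mt N × Mt N) =>
        (dn (q.1 * sg c (tp q.2.1 q.2.2)) (tp q.2.1 q.2.2))⁻¹)
        (Icc (0 : ℝ) 1 ×ˢ (HP N ×ˢ HP N)) := by
      refine ContinuousOn.inv₀ ?_ ?_
      · unfold dn
        exact (continuous_const.sub (((continuous_const.mul hr).sub (hr.pow 2)).mul
          ht)).continuousOn
      · rintro ⟨s, a, b⟩ ⟨hs, ha, hb⟩
        exact (dn_Ht c s ha hb).ne'
    exact h2.smul (continuous_nb.comp (hr.prodMk continuous_snd)).continuousOn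
  · rintro s hs ⟨a, b⟩ ⟨ha, hb⟩
    exact ⟨ha, (nB_mem ha hb (dn_Ht c s ha hb)).1⟩
  · exact fun s _ i => i.elim

theorem Ht_Fl (c s : ℝ) : MapsTo (Ht c s) (Fl N) (Fl N) := by
  rintro ⟨a, b⟩ ⟨ha, hb, h⟩
  have ha' : a ∈ HP N := ha
  have hb' : b ∈ HP N := hb
  have h' : tp a b = 0 := h
  have := nB_mem ha' hb' (dn_Ht c s ha' hb')
  refine ⟨ha, this.1, ?_⟩
  change tp a (nB (s * sg c (tp a b)) a b) = 0
  rw [this.2, h', mul_zero, mul_zero]

theorem Ht_Ac {c : ℝ} (hc : c < 1) : MapsTo (Ht c 1) (Ac N c) (Fl N) := by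
  rintro ⟨a, b⟩ ⟨ha, hb, h⟩
  have ha' : a ∈ HP N := ha
  have hb' : b ∈ HP N := hb
  have h' : tp a b ≤ c := h
  have := nB_mem ha' hb' (dn_Ht c 1 ha' hb')
  refine ⟨ha, this.1, ?_⟩
  change tp a (nB (1 * sg c (tp a b)) a b) = 0
  rw [this.2, sg_of_le hc h', mul_one, sub_self]
  norm_num

/-- **T4.** -/
theorem t4 : T4 := by
  intro N k _ c h0 hc q x
  have hH := isHtpy_Ht (N := N) c
  have hFl : Fl N ⊆ HP N ×ˢ HP N := fun p hp => ⟨hp.1, hp.2.1⟩
  have hAc : Ac N c ⊆ HP N ×ˢ HP N := fun p hp => ⟨hp.1, hp.2.1⟩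
  refine ⟨pullR (on k) hH.one hAc (Ht_Ac hc) q x, ?_⟩
  have h1 : resR subset_rfl (fl_sub_ac h0) q (pullR (on k) hH.one hAc (Ht_Ac hc) q x) =
      pullR (on k) hH.one hFl (Ht_Fl c 1) q x := by
    obtain ⟨f, hf, rfl⟩ := H.exists_mk x
    rfl
  rw [h1, pullR_homotopy hH hFl (fun s _ => Ht_Fl c s) q,
    pullR_eq_resR subset_rfl subset_rfl hFl]
  · exact Hinc_refl _ _ x
  · rintro ⟨a, b⟩ -
    change (a, nB (0 * sg c (tp a b)) a b) = (a, b)
    rw [zero_mul, nB_zero]

end Vale.Agent.P216.H985C
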